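import Vale.Agent.P257TW.Tw
import Vale.Agent.P257.G.Ind
import Vale.Agent.P257.Main.Final

/-!
# P257, tower: `V(n)` is the last stage of a tower of cofibres of self maps

The same chain of reductions as for `HasV`, with the stronger conclusion `HasTower`.
-/

open CategoryTheory MonoidalCategory Limits Pretriangulated MonObj

universe v u v' u'

set_option linter.unusedSectionVars false

noncomputable section

namespace Vale.Agent.P257TW

open Vale.Agent.P251CY.V (HasTower)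

section link

open Vale.Agent.P251 Vale.Agent.P251.G Vale.Agent.P251.G.LC Vale.Agent.P251.I Vale.Agent.P251.M
  Vale.Agent.P251.T Vale.Agent.P257 Vale.Agent.P257.H314 Vale.Agent.P257.L
open Vale.Agent.P251.S hiding IC

variable {C : Type u'} [Category.{v'} C] [Preadditive C] [MonoidalCategory C]
  [SymmetricCategory C] [MonoidalPreadditive C]

theorem of_tow {p n : ℕ} (hp : p.Prime) (h2 : p ≠ 2) (K : Model p C) {V : C}
    {i : 𝟙_ C ⟶ V} (H : K.toCMod.Tow p (n + 1) i) {T : St.SHCat} (S : St.Susp T) :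
    HasTower S p n := by
  have : Fact p.Prime := ⟨hp⟩
  obtain ⟨M⟩ := nonempty_MUMon S.toSpaceFunctor (stdEven T.C) (M.lineIso S.toSpaceFunctor)
  obtain ⟨b⟩ := M.nonempty_muBasis
  have U : H702.MUFam (P251.M.lineIso S.toSpaceFunctor) (M.data b) := by
    refine ⟨M.fam, ?_, ?_, ?_⟩
    · rw [M.data_law b, M.ori_eq, M.orient_eq]
      rfl
    · intro K _ _ W'
      obtain ⟨u, hu, _, h⟩ := M.exists_univ_of_cls W' (clsOfFam _ W') (fun _ _ => rfl)
      exact ⟨u, hu, h⟩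
    · intro K _ _ u u' hu hu' h
      exact @H702.univ_unique T.C _ _ _ _ _ _ _ _ _ _ _ _ _ _ _ (stdEven T.C) _ M K _ _ u u'
        hu hu' h
  obtain ⟨Z, iC, δ, hC⟩ := distinguished_cocone_triangle ((p : ℤ) • 𝟙 (𝟙_ T.C))
  obtain ⟨-, _, _, _, _, _, _, _, -, -, -, -, hS⟩ := real_tow K M b h2 hC H
  exact hasTower_of_isST h2 (M.muUniv b) U le_rfl hS

end link

section sc

open Vale.Agent.P251 Vale.Agent.P251.G Vale.Agent.P251.H Vale.Agent.P251.H.StabInput
  Vale.Agent.P251.I Vale.Agent.P251.M Vale.Agent.P257 Vale.Agent.P257.C Vale.Agent.P257.K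
  Vale.Agent.P257.L
open Functor.LaxMonoidal Functor.OplaxMonoidal

variable {M : Type u} [Category.{v} M] [MonoidalCategory M] [SymmetricCategory M]
    [MonoidalClosed M] [HasZeroMorphisms M] [HasColimitsOfSize.{0, 0} M] [StabInput M]

theorem of_pLoc {C : Type u'} [Category.{v'} C] [Preadditive C] [MonoidalCategory C]
    [SymmetricCategory C] [MonoidalPreadditive C] {st : M ⥤ C} [st.Braided]
    {D : StabObj (HM M)} {l : D.U.obj ⟶ 𝟙_ M} (H : PLoc st D l) {e : U M ⟶ D.U.obj} {c : ℤ}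
    (hc : st.map (e ≫ l) = c • st.map (lamU M)) (he : IsIso (st.map e)) {p n : ℕ} (hp : p.Prime)
    (h2 : p ≠ 2) (hm : ∀ m : ℕ, 0 < m → m < p → ∃ k : ℕ, (m : ℤ) ∣ c ^ k)
    (E : Tests (st.obj (S M))) {O V : C} [IsInv O] (hO : E.Sm O) {i : O ⟶ V}
    (h : (H.loc.cmod H.sph (H.isInv hc he)).WTow H.loc.triStr E p O (n + 1) i) {T : St.SHCat}
    (σ : St.Susp T) : HasTower σ p n := by
  obtain ⟨V', i', -, k, -⟩ := CMod.WTow.exists_tow (K := H.loc.cmod H.sph (H.isInv hc he))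
    (D := H.loc.triStr) (fun t => Exists.intro _ t) hO h
  exact of_tow hp h2 (H.model hc he p hm) k σ

theorem of_wTow_sc {p n n₀ : ℕ} (hp : p.Prime) (h2 : p ≠ 2)
    (hm : ∀ m : ℕ, 0 < m → m < p → ∃ k : ℕ, m ∣ n₀ ^ k) {D : Stab M}
    (hD : D = (Stab.std M).twist (degU (Stab.std M) n₀)) (E : Tests (SC.SS D)) {O V : SC D}
    [IsInv O] (hO : E.Sm O) {i : O ⟶ V} (h : (scMod D).WTow (scTri D) E p O (n + 1) i)
    {T : St.SHCat} (σ : St.Susp T) : HasTower σ p n := by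
  subst hD
  refine of_pLoc (scPLoc _) (e := 𝟙 _) (c := n₀) ?_ ?_ hp h2 (fun m h1 h2 => ?_) E hO h σ
  · refine (congrArg _ (Category.id_comp _)).trans (((st _).map_comp _ _).trans ?_)
    rw [st_degU, Preadditive.zsmul_comp, Category.id_comp]
  · exact ((st _).mapIso (Iso.refl _)).isIso_hom
  · exact (hm m h1 h2).imp fun k hk => by exact_mod_cast hk

end sc

section chain

open Vale.Agent.P251 Vale.Agent.P251.H Vale.Agent.P251.H.StabInput Vale.Agent.P251.M
open Vale.Agent.P257 Vale.Agent.P257.W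
open K M D D.EF C A T L

universe w

theorem of_tc {p : ℕ} {R : W.EE p} {T : CommMon MM} [MonObj R] {A₀ : Type w} [CommRing A₀]
    {G : RegSeq p A₀} {Q : Coef (SC.sph (De p)) R G} {ok : ℕ → MM → Prop} {a : ℕ → Lam}
    {w : ℕ → ℕ} (hp : p.Prime) (h0 : Le0 R.obj) (h1 : Supp R.obj {g : Gam | g.1 = 0})
    (h2 : PosT R.obj 0) (h : V.OddCells ok w) {i : ℕ} (tc : TC ok T0 (i + 1) T)
    (hd : tc.All (DetS Q a w)) {r : ℕ} (hr : ∑ j ∈ Finset.range (i + 1), w j ≤ r) (hr' : r < p)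
    (hp2 : p ≠ 2) (hK : Thom R (scMod (De p))) {U : St.SHCat} (σ : St.Susp U) :
    HasTower σ p i :=
  have : IsInv ((sE p).obj (rp (0, (r : ℤ)))) := inferInstance
  of_wTow_sc (n₀ := E.n0 p) hp hp2 (fun _ k l => (Smooth.of_lt k l).dvd_pow) rfl
    (wTests p (0, r)) (wTests_sm _) (MTow.wTow (K := scMod (De p)) (SC.sphOne _) (wTests_sm _) hp hK
      (mTow_tc hp h0 h1 h2 h tc hd 0 hr hr')) σ

theorem of_QG {U : St.SHCat} (σ : St.Susp U) {p : ℕ} (hp : p.Prime) (h2 : p ≠ 2) {lam n : ℕ}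
    {a : ℕ → Lam} {T : CommMon MM} (hl : 2 ≤ lam) (hn : lam ^ (n + 1) ≤ p)
    (tc : TC (okT p lam) T0 (n + 1) T) (hd : tc.All (DetS (QG σ hp h2) a (lam ^ ·))) :
    HasTower σ p n :=
  of_tc (R := (sE p).obj MG.X) hp le0_MG wt_MG posT_MG (oddCells_okT (by omega)) tc hd le_rfl
    ((Wt_lt hl _).trans_le hn) h2 (thom_MG σ p) σ

end chain

section large

open Vale.Agent.P251.St Vale.Agent.P257 Vale.Agent.P257.W Vale.Agent.P257.G

theorem hasTower_large {U : SHCat} (σ : Susp U) (n p : ℕ) (hp : p.Prime)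
    (h : 2 ^ (n + 1) + 2 ≤ p) : HasTower σ p n := by
  have : Fact p.Prime := ⟨hp⟩
  have : Nontrivial (Fin p) := Fin.nontrivial_iff_two_le.2 hp.two_le
  have k : Num p n := h
  have h4 := k.four_le
  have h2 : p ≠ 2 := by omega
  have hl : 4 ≤ Nat.card (Fin p) := by rwa [Nat.card_eq_fintype_card, Fintype.card_fin]
  have key : ∀ j ≤ n, ∃ c : Core (Fin p) p n hl j, c.Det (QG σ hp h2) := fun j => by
    induction j with
    | zero => exact fun _ => exists_core_zero _ k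
    | succ j ih =>
      exact fun hj => (ih (by omega)).elim fun c hc => Core.step _ k (Z.ctx iG p (Fin p))
        (glue k (isMU_QG h2 σ (detO_EM σ hp h2))) hj c hc
  obtain ⟨c, hc⟩ := key n le_rfl
  exact of_QG σ hp h2 le_rfl k.lt.le c.tc1 hc

end large

section four

open Vale.Agent.P251 Vale.Agent.P251.T Vale.Agent.P251.F Vale.Agent.P251.I
  Vale.Agent.P251.M Vale.Agent.P257 Vale.Agent.P257.H314 Vale.Agent.P257.H712 Vale.Agent.P257.H545
  Vale.Agent.P257.Main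
open Vale.Agent.P251.S hiding IC

theorem hasTower_four {T : P251.St.SHCat} (S : P251.St.Susp T) {n p : ℕ}
    (hp : p.Prime) (h4 : n ≤ 4) (h11 : 11 ≤ p) : HasTower S p n := by
  have : Fact p.Prime := ⟨hp⟩
  obtain ⟨D, hD, ⟨U'⟩, -⟩ := H80.exists_muAll S.toSpaceFunctor (M.lineIso S.toSpaceFunctor)
  obtain ⟨U⟩ := exists_unitCof D.R
  obtain ⟨C, iC, δ, hC⟩ := distinguished_cocone_triangle ((p : ℤ) • 𝟙 (𝟙_ T.C))
  obtain ⟨V, i, hV⟩ := exists_V4P U h11 hC (factsP h11)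
    (H163.todaRel S.toSpaceFunctor D U (by omega) hC)
    (H545.stepInput hp h11 (fun {_} => factsP h11) T.C D U C iC)
  exact hasTower_of_isST (by omega) hD U' h4 hV

end four

/-- **The tower of self maps.** -/
theorem hasTower {T : P251.St.SHCat} (S : P251.St.Susp T) (n p : ℕ) (hp : p.Prime)
    (h : 2 ^ (n + 1) + 2 ≤ p ∨ (n ≤ 4 ∧ 11 ≤ p)) : HasTower S p n :=
  h.elim (hasTower_large S n p hp) fun k => hasTower_four S hp k.1 k.2

end Vale.Agent.P257TW
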