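import Vale.Agent.P257.H702.Koszul

/-!
# P257, tower: a self map which is `w` on the bottom cell is the multiplication by `w`
-/

open CategoryTheory MonoidalCategory Limits Pretriangulated MonObj

universe v u

namespace Vale.Agent.P257TW

open Vale.Agent.P251.T Vale.Agent.P251.S Vale.Agent.P251.M Vale.Agent.P257.H702

set_option linter.unusedSectionVars false

variable {T : Type u} [Category.{v} T] [Preadditive T] [HasZeroObject T] [HasShift T ℤ]
  [∀ n : ℤ, (shiftFunctor T n).Additive] [Pretriangulated T]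
  [MonoidalCategory T] [SymmetricCategory T] [TensorTriangulated T]

theorem mul_of_hur {K : T} [MonObj K] {S V A A' : T} [IsInv S] (θ : A ≅ A' ⊗ S) {i : 𝟙_ T ⟶ V}
    (hgen : ∀ y : A' ⟶ K ⊗ V, ∃ a : A' ⟶ K, y = hcls i a) {f : S ⊗ V ⟶ V} {w : S ⟶ K}
    (hhur : ((ρ_ S).inv ≫ S ◁ i ≫ f) ≫ (λ_ V).inv ≫ η[K] ▷ V = hcls i w)
    (y : A ⟶ K ⊗ (S ⊗ V)) :
    y ≫ K ◁ f = y ≫ K ◁ (w ▷ V) ≫ (α_ K K V).inv ≫ μ[K] ▷ V := by
  obtain ⟨z, rfl⟩ := exists_desus θ y
  obtain ⟨a, rfl⟩ := hgen z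
  simp only [Category.assoc]
  congr 1
  have h1 : ((ρ_ S).inv ≫ S ◁ i) ≫ w ▷ V = hcls i w := by
    rw [Category.assoc, whisker_exchange, hcls, rightUnitor_inv_naturality_assoc]
  rw [hcls_shuf_comp i a w f hhur, ← Category.assoc (hcls i a ▷ S), hcls_shuf, Category.assoc,
    ← MonoidalCategory.whiskerLeft_comp_assoc, h1]
  unfold hcls pr
  simp only [MonoidalCategory.whiskerLeft_comp, Category.assoc, tensorHom_def]
  rw [associator_inv_naturality_right_assoc, whisker_exchange, rightUnitor_inv_naturality_assoc]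
  simp

end Vale.Agent.P257TW
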