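import Vale.Agent.P257CY.St

/-!
# P257, statement layer: the tower of self maps
-/

namespace Vale.Agent.P251CY.V

open Vale.Agent.P251.St (SHCat Susp)
open Vale.Agent.P251.St.SHCat

variable {T : SHCat} {S : Susp T} {R : RingSp T}

/-- The self map `f : S^{2d} ⊗ X ⟶ X` induces the multiplication by `v ∈ π_{2d} R` on `R_* X`:
on homotopy groups `R ⊗ f` is the map `R ⊗ S^{2d} ⊗ X ⟶ R ⊗ R ⊗ X ⟶ R ⊗ X` given by `v`. -/
def IsMulBy {d : ℕ} (v : PiR S R d) {X : T.C} (f : Hom (ten (Sn S d) X) X) : Prop :=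
  ∀ k (y : Hom (sphere T k) _),
    comp y (tenL R.obj f) = comp y (comp (tenL R.obj (tenR v X)) (lact R X))

/-- The tower of successive cofibres: `X 0` is the sphere spectrum and, for `k ≤ n`, `X (k + 1)` is
the cofibre of a self map of `X k` of degree `2 (p^k - 1)` which induces the multiplication by the
Hazewinkel generator `v_k` (`v_0 = p`) in `BP`-homology; `X (k + 1)` is a finite `p`-local spectrum
and a Smith-Toda complex `V(k)`. -/
def HasTower (S : Susp T) (p n : ℕ) : Prop :=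
  ∃ X : ℕ → T.C, X 0 = T.one ∧ ∀ k ≤ n, FinPLocal p (X (k + 1)) ∧
    ∃ (f : Hom (ten (Sn S (p ^ k - 1)) (X k)) (X k)) (g : Hom (X k) (X (k + 1))) (h : Hom _ _),
      Dist f g h ∧ ∀ (B : RingSp T) (o : Oriented S B) (φ : GHom S p B), IsBrownPeterson p o φ →
        IsMulBy (hazV φ k) f ∧ IsSmithToda k (hazV φ) (X (k + 1))

end Vale.Agent.P251CY.V
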