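import Vale.Agent.P257TW.St
import Vale.Agent.P257TW.Mul
import Vale.Agent.P257CY.Br
import Vale.Agent.P257.H702.HasV

/-!
# P257, tower: from the tower of the library to the statement layer
-/

open CategoryTheory MonoidalCategory Limits Pretriangulated MonObj

set_option linter.unusedSectionVars false

noncomputable section

namespace Vale.Agent.P257TW

open Vale.Agent.P251 Vale.Agent.P251.T Vale.Agent.P251.I Vale.Agent.P251.X Vale.Agent.P251.S
  Vale.Agent.P251.M Vale.Agent.P251.St Vale.Agent.P251.F Vale.Agent.P257 Vale.Agent.P257.H314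
  Vale.Agent.P257.H702 Vale.Agent.P257.H80
open Vale.Agent.P251.M.EvenSpheres

variable {T : SHCat} {S : Susp T} {p : ℕ} [hp : Fact p.Prime]

/-- the coefficient `v_k` of the `p`-series is the Hazewinkel generator modulo `(v_0, …, v_{k-1})` -/
theorem vK_sub_haz {R : RingSp T} {D : MUData T.C} {u : D.R ⟶ R.obj} [IsMonHom u]
    {φ : ∀ n : ℕ, P257.St.VPoly p n →+ SHCat.Hom (S.obj (St.Cn n)) R.obj}
    {Φ : MvPolynomial ℕ ℤ →+* HRing (stdEven T.C) R.obj}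
    (hlaw : lawOf u = (haz p).map Φ)
    (hΦ : ∀ (n : ℕ) (x : P257.St.VPoly p n), Φ (x : MvPolynomial ℕ ℤ) =
      HRing.of (stdEven T.C) R.obj n ((isoE S n).inv ≫ φ n x)) (k : ℕ) :
    InI (vK D p u) k (vK D p u k - (spI S hp.out.one_le k).inv ≫ P257.St.hazV φ k) := by
  rw [inI_iff_mem_span (w := fun i => (p ^ i : ℤ) - 1)]
  have h1 : HRing.of (stdEven T.C) R.obj ((p ^ k : ℤ) - 1)
      (vK D p u k - (spI S hp.out.one_le k).inv ≫ P257.St.hazV φ k) =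
      vv p k ((haz p).map Φ) - Φ (P257.St.vEl p k) := by
    rw [← hlaw, vv_lawOf, ← H604.of_hazV hp.out.one_le hΦ]
    exact map_sub (DirectSum.of ((stdEven T.C).Gr R.obj) _) _ _
  rw [h1]
  simp only [← vv_lawOf]
  rw [H604.span_vv, hlaw]
  cases k with
  | zero =>
    have h0 : Φ (P257.St.vEl p 0) = (p : HRing (stdEven T.C) R.obj) := by
      rw [P257.St.vEl, ← MvPolynomial.algebraMap_eq]
      simp
    rw [vv_zero, h0, sub_self]
    exact Ideal.zero_mem _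
  | succ k =>
    rw [Ih_haz]
    exact vv_haz_sub_mem p Φ k

/-- one stage of the tower -/
def Step (S : Susp T) (p k : ℕ) (X Y : T.C) : Prop :=
  P251CY.V.FinPLocal p Y ∧
    ∃ (f : SHCat.Hom (SHCat.ten (P251CY.Sn S (p ^ k - 1)) X) X) (g : SHCat.Hom X Y)
      (h : SHCat.Hom _ _), SHCat.Dist f g h ∧ ∀ (B : P251CY.RingSp T) (o : P251CY.Oriented S B)
        (φ : P251CY.GHom S p B), P251CY.V.IsBrownPeterson p o φ →
        P251CY.V.IsMulBy (P251CY.V.hazV φ k) f ∧ P251CY.V.IsSmithToda k (P251CY.V.hazV φ) Y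

variable (h2 : p ≠ 2) {D : MUData T.C} (hD : MUUniv (M.lineIso S.toSpaceFunctor) D)
  (U : MUFam (M.lineIso S.toSpaceFunctor) D)
include h2 hD U

theorem step {k : ℕ} {V V' : T.C} {i : 𝟙_ T.C ⟶ V} (hgen : GenK D p k i)
    {f : Sv T.C p k ⊗ V ⟶ V}
    (hhur : ∀ (K : T.C) [MonObj K] (u : D.R ⟶ K) [IsMonHom u],
      ((ρ_ _).inv ≫ Sv T.C p k ◁ i ≫ f) ≫ (λ_ V).inv ≫ η[K] ▷ V = hcls i (vK D p u k))
    {j : V ⟶ V'} {δ : V' ⟶ (Sv T.C p k ⊗ V)⟦(1 : ℤ)⟧}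
    (hΔ : Triangle.mk f j δ ∈ distTriang T.C) (hfin : P257.St.FinSp V') (hk : KillsPow p V') :
    Step S p k V V' := by
  obtain ⟨l, hl⟩ := hk
  let e : S.obj (St.Cn (p ^ k - 1)) ⊗ V ≅ Sv T.C p k ⊗ V :=
    whiskerRightIso (spI S hp.out.one_le k) V
  refine ⟨(P251CY.V.finPLocal_iff _ _).2 (finPLocal_of_kills hp.out hfin hl), e.hom ≫ f, j,
    δ ≫ e.inv⟦(1 : ℤ)⟧', dist_iso' hΔ e.symm (Iso.refl _) (Iso.refl _) (by simp) (by simp)
      (by simp), fun B o φ hB => ?_⟩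
  have hB' := (P251CY.V.isBrownPeterson_iff p o φ).1 hB
  obtain ⟨u, hu, ho⟩ := U.exists_mapS o.toOld
  obtain ⟨Φ, hΦ, hlaw⟩ := ptypOut B.toOld o.toOld φ.toOld hB'.typ
  have hb := isBPMon_of_isBrownPeterson ptypOut hD U ptypIn hB' ho
  obtain ⟨C, iC, δC, hC⟩ := distinguished_cocone_triangle ((p : ℤ) • 𝟙 (𝟙_ T.C))
  have h1 : lawOf u = (haz p).map Φ := by rw [← hlaw, U.lawS_eq ho]; rfl
  have hr := hb.reg hD h2 hC (k + 1)
  have hc : CycK (vK D p u) k i := hgen _ u (hr.mono (Nat.le_succ k))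
  have hc' : CycK (vK D p u) (k + 1) (i ≫ j) :=
    hc.step (sphAct p) (hr k (Nat.lt_succ_self k)) (hhur _ u) hΔ
  rw [P251CY.V.hazV_eq]
  refine ⟨fun m y => ?_,
    (P251CY.V.isSmithToda_iff p k _ V').2 (H604.isSmithToda_haz h1 hΦ hc')⟩
  obtain ⟨A', hA', ⟨θ⟩⟩ := (sphAct (T := T.C) p).desus k ((𝟙_ T.C)⟦m⟧) ⟨m, ⟨Iso.refl _⟩⟩
  have := (sphAct (T := T.C) p).inv k
  have hw : hcls i (vK D p u k) =
      hcls i ((spI S hp.out.one_le k).inv ≫ P257.St.hazV φ.toOld k) := by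
    rw [← sub_eq_zero, ← hcls_sub, hc.2 _ ⟨_, ⟨sI T.C _⟩⟩]
    exact vK_sub_haz h1 hΦ k
  have key := mul_of_hur θ (hc.1 A' hA') ((hhur _ u).trans hw) (y ≫ B.obj ◁ e.hom)
  change y ≫ B.obj ◁ (e.hom ≫ f) = y ≫ B.obj ◁ (P257.St.hazV φ.toOld k ▷ V) ≫
    (α_ B.obj B.obj V).inv ≫ μ[B.obj] ▷ V
  rw [MonoidalCategory.whiskerLeft_comp, ← Category.assoc]
  refine key.trans ?_
  rw [Category.assoc, ← MonoidalCategory.whiskerLeft_comp_assoc]
  congr 3
  change (spI S hp.out.one_le k).hom ▷ V ≫ _ = _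
  rw [← comp_whiskerRight, Iso.hom_inv_id_assoc]

omit h2 hD U in
theorem finCell_of_sTow {h : ℕ} {V : T.C} {i : 𝟙_ T.C ⟶ V} (H : STow D p h i) :
    FinCell T.C Set.univ V := by
  induction H with
  | one hC =>
    exact FinCell.ext₃ (S := Set.univ) _ hC (FinCell.unit trivial) (FinCell.unit trivial)
      fun _ _ => trivial
  | succ H x hx f hf j δ hΔ ih =>
    refine FinCell.ext₃ (S := Set.univ) _ hΔ ih ?_ fun _ _ => trivial
    exact FinCell.tensor (S := Set.univ) (S' := Set.univ)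
      (FinCell.of_iso (sI T.C _).symm (FinCell.sphere _ trivial)) ih fun _ _ _ _ => trivial

theorem exists_seq {h : ℕ} {V : T.C} {i : 𝟙_ T.C ⟶ V} (H : STow D p h i) :
    ∃ X : ℕ → T.C, X 0 = 𝟙_ T.C ∧ X h = V ∧ ∀ k < h, Step S p k (X k) (X (k + 1)) := by
  induction H with
  | @one C iC δ hC =>
    refine ⟨fun k => Nat.casesOn k (𝟙_ T.C) fun _ => C, rfl, rfl, fun k hk => ?_⟩
    obtain rfl : k = 0 := by omega
    let a : 𝟙_ T.C ≅ Sv T.C p 0 ⊗ 𝟙_ T.C := (e0 T.C p).symm ≪≫ (ρ_ _).symm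
    have hΔ : Triangle.mk (a.inv ≫ ((p : ℤ) • 𝟙 (𝟙_ T.C))) iC (δ ≫ a.hom⟦(1 : ℤ)⟧') ∈
        distTriang T.C :=
      dist_iso' hC a (Iso.refl _) (Iso.refl _) (by simp) (by simp) (by simp)
    refine step h2 hD U (i := 𝟙 _) (fun K _ u _ _ => CycK.zero) (fun K _ u _ => ?_) hΔ
      (finSp_of_finCell (finCell_of_sTow (STow.one (D := D) hC))) (KillsPow.one hC)
    have h3 : (vK D p u 0) = (p : ℤ) • ((e0 T.C p).hom ≫ η[K]) := by
      rw [vK, vel_zero, Preadditive.zsmul_comp, Category.assoc, IsMonHom.one_hom]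
    rw [h3]
    simp [a, hcls, unitors_inv_equal]
  | @succ h V V' i H x hx f hf j δ hΔ ih =>
    obtain ⟨X, h0, h1, h3⟩ := ih
    have H' := STow.succ H x hx f hf j δ hΔ
    refine ⟨fun k => if k ≤ h then X k else V', by simpa using h0, by simp, fun k hk => ?_⟩
    rcases Nat.lt_succ_iff_lt_or_eq.1 hk with hk | rfl
    · have := h3 k hk
      beta_reduce
      rwa [if_pos hk.le, if_pos (Nat.succ_le_of_lt hk)]
    · beta_reduce
      rw [if_pos le_rfl, if_neg (Nat.not_succ_le_self _), h1]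
      refine step h2 hD U (genK_of_sTow H) (fun K _ u _ => ?_) hΔ
        (finSp_of_finCell (finCell_of_sTow H')) (killsPow_of_sTow H')
      rw [hf, Iso.inv_hom_id_assoc]
      exact hur_of_det hx u

/-- **The tower** from a Smith-Toda complex in the sense of the library. -/
theorem hasTower_of_isST {n m : ℕ} (hn : n ≤ m) {C : T.C} {iC : 𝟙_ T.C ⟶ C} {X : T.C}
    {i : 𝟙_ T.C ⟶ X} (H : IsST D p iC (m + 1) i) : P251CY.V.HasTower S p n := by
  obtain ⟨Y, h0, -, h3⟩ := exists_seq h2 hD U H.tow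
  exact ⟨Y, h0, fun k hk => h3 k (by omega)⟩

end Vale.Agent.P257TW
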